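import Mathlib

/-! P245: definitions used in the proof of the polylogarithmic log-Sobolev bound. -/

open MeasureTheory Real
open scoped RealInnerProductSpace ENNReal

namespace Vale.Agent.P245

abbrev E (n : ℕ) := EuclideanSpace ℝ (Fin n)

variable {n : ℕ}

/-- Entropy `Ent_μ(F)`. -/
noncomputable def Ent (μ : Measure (E n)) (F : E n → ℝ) : ℝ :=
  (∫ x, F x * log (F x) ∂μ) - (∫ x, F x ∂μ) * log (∫ x, F x ∂μ)

/-- Prekopa-Leindler property of a measure with weight `t` and interpolation `mid`. -/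
def PLfn {X : Type*} [MeasurableSpace X] (m : Measure X) (t : ℝ) (mid : X → X → X) : Prop :=
  ∀ f g h : X → ℝ≥0∞, Measurable f → Measurable g → Measurable h →
    (∀ x y, f x ^ t * g y ^ (1 - t) ≤ h (mid x y)) →
    (∫⁻ x, f x ∂m) ^ t * (∫⁻ x, g x ∂m) ^ (1 - t) ≤ ∫⁻ x, h x ∂m

/-- Probability measure carried by the closed ball of radius `R`. -/
structure Good (μ : Measure (E n)) (R : ℝ) : Prop where
  prob : IsProbabilityMeasure μ
  nn : 0 ≤ R
  supp : ∀ᵐ x ∂μ, ‖x‖ ≤ R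

/-- Log-concavity of `μ` (carried by the `R`-ball) in functional form. -/
def LC (μ : Measure (E n)) (R : ℝ) : Prop :=
  ∀ t : ℝ, 0 < t → t < 1 → ∀ U V W : E n → ℝ, Continuous U → Continuous V → Continuous W →
    (∀ x y, ‖x‖ ≤ R → ‖y‖ ≤ R → t * U x + (1 - t) * V y ≤ W (t • x + (1 - t) • y)) →
    t * log (∫ x, exp (U x) ∂μ) + (1 - t) * log (∫ x, exp (V x) ∂μ) ≤ log (∫ x, exp (W x) ∂μ)

/-- Subgaussian moment generating function around the point `c`. -/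
def SG (μ : Measure (E n)) (a : ℝ) (c : E n) : Prop :=
  ∀ ζ : E n, ∫ x, exp ⟪ζ, x - c⟫ ∂μ ≤ exp (a ^ 2 * ‖ζ‖ ^ 2)

/-- `e^g μ` is a probability measure. -/
def Nm (μ : Measure (E n)) (g : E n → ℝ) : Prop := ∫ x, exp (g x) ∂μ = 1

/-- Relative entropy of `e^g μ`. -/
noncomputable def Hh (μ : Measure (E n)) (g : E n → ℝ) : ℝ := ∫ x, exp (g x) * g x ∂μ

/-- Relative Fisher information of `e^g μ`. -/
noncomputable def Ii (μ : Measure (E n)) (g : E n → ℝ) : ℝ :=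
  ∫ x, exp (g x) * ‖fderiv ℝ g x‖ ^ 2 ∂μ

/-- Defective log-Sobolev inequality. -/
def Def (μ : Measure (E n)) (lam d : ℝ) : Prop :=
  ∀ g : E n → ℝ, ContDiff ℝ 1 g → Nm μ g → Hh μ g ≤ lam * Ii μ g + d

/-- Squared Hilbert-Schmidt norm. -/
noncomputable def HS (L : E n →L[ℝ] E n) : ℝ := ∑ j, ‖L (EuclideanSpace.single j 1)‖ ^ 2

/-- Gaussian kernel of variance `s`. -/
noncomputable def gk (s : ℝ) (y x : E n) : ℝ :=
  (2 * π * s) ^ (-(n : ℝ) / 2) * exp (-‖y - x‖ ^ 2 / (2 * s))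

/-- Heat flow of the signed measure `φ μ`. -/
noncomputable def PP (μ : Measure (E n)) (φ : E n → ℝ) (s : ℝ) (y : E n) : ℝ :=
  ∫ x, φ x * gk s y x ∂μ

/-- Its derivative in `s`. -/
noncomputable def PS (μ : Measure (E n)) (φ : E n → ℝ) (s : ℝ) (y : E n) : ℝ :=
  ∫ x, φ x * (gk s y x * (‖y - x‖ ^ 2 / (2 * s ^ 2) - n / (2 * s))) ∂μ

/-- Its gradient in `y`. -/
noncomputable def PD (μ : Measure (E n)) (φ : E n → ℝ) (s : ℝ) (y : E n) : E n :=
  ∫ x, (φ x * gk s y x / s) • (x - y) ∂μ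

/-- Density of `e^g μ` convolved with the Gaussian. -/
noncomputable def pp (μ : Measure (E n)) (g : E n → ℝ) (s : ℝ) (y : E n) : ℝ :=
  ∫ x, exp (g x) * gk s y x ∂μ

/-- Posterior mean. -/
noncomputable def av (μ : Measure (E n)) (g : E n → ℝ) (s : ℝ) (y : E n) : E n :=
  (pp μ g s y)⁻¹ • ∫ x, (exp (g x) * gk s y x) • x ∂μ

/-- Posterior covariance. -/
noncomputable def cv (μ : Measure (E n)) (g : E n → ℝ) (s : ℝ) (y : E n) : E n →L[ℝ] E n :=
  (pp μ g s y)⁻¹ • ∫ x, (exp (g x) * gk s y x) •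
    (innerSL ℝ (x - av μ g s y)).smulRight (x - av μ g s y) ∂μ

/-- Log-likelihood ratio of the observation. -/
noncomputable def uu (μ : Measure (E n)) (g : E n → ℝ) (s : ℝ) (y : E n) : ℝ :=
  log (pp μ g s y) - log (pp μ 0 s y)

/-- Gradient of `uu` in `y`. -/
noncomputable def NN (μ : Measure (E n)) (g : E n → ℝ) (s : ℝ) (y : E n) : E n :=
  s⁻¹ • (av μ g s y - av μ 0 s y)

/-- Derivative of `NN` in `y`. -/
noncomputable def DN (μ : Measure (E n)) (g : E n → ℝ) (s : ℝ) (y : E n) : E n →L[ℝ] E n :=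
  (s ^ 2)⁻¹ • (cv μ g s y - cv μ 0 s y)

/-- Relative entropy of the two posteriors. -/
noncomputable def Hy (μ : Measure (E n)) (g : E n → ℝ) (s : ℝ) (y : E n) : ℝ :=
  (∫ x, exp (g x) * gk s y x * g x ∂μ) / pp μ g s y - uu μ g s y

/-- Relative Fisher information at time `s`. -/
noncomputable def JJ (μ : Measure (E n)) (g : E n → ℝ) (s : ℝ) : ℝ :=
  ∫ y, pp μ g s y * ‖NN μ g s y‖ ^ 2

/-- Second order information at time `s`. -/
noncomputable def TT (μ : Measure (E n)) (g : E n → ℝ) (s : ℝ) : ℝ :=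
  ∫ y, pp μ g s y * HS (DN μ g s y)

/-- Pointwise `s`-derivative of `pp * ‖av g - av 0‖ ^ 2`. -/
noncomputable def KS (μ : Measure (E n)) (g : E n → ℝ) (s : ℝ) (y : E n) : ℝ :=
  (‖av μ g s y - av μ 0 s y‖ ^ 2 - 2 * ⟪av μ g s y - av μ 0 s y, av μ g s y⟫) *
      PS μ (fun x => exp (g x)) s y +
    (∑ i, 2 * (av μ g s y - av μ 0 s y) i * PS μ (fun x => exp (g x) * x i) s y) -
    (∑ i, 2 * (pp μ g s y / pp μ 0 s y * (av μ g s y - av μ 0 s y) i) * PS μ (fun x => x i) s y) +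
    2 * (pp μ g s y / pp μ 0 s y * ⟪av μ g s y - av μ 0 s y, av μ 0 s y⟫) * PS μ (fun _ => 1) s y

/-- Lebesgue measure on `(s0, S] × E`. -/
noncomputable def tau (n : ℕ) (s0 S : ℝ) : Measure (ℝ × E n) :=
  ((volume : Measure ℝ).restrict (Set.Ioc s0 S)).prod volume

/-- Average over a uniform time `s` in `(s0, S]` and `y ~ N(x, s)`. -/
noncomputable def Av {V : Type*} [NormedAddCommGroup V] [NormedSpace ℝ V] (s0 S : ℝ)
    (F : ℝ → E n → V) (x : E n) : V :=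
  (S - s0)⁻¹ • ∫ z, gk z.1 z.2 x • F z.1 z.2 ∂(tau n s0 S)

/-- Jointly measurable and bounded by `C` for times in `(s0, S]`. -/
structure Bd {V : Type*} [NormedAddCommGroup V] (s0 S C : ℝ) (F : ℝ → E n → V) : Prop where
  meas : StronglyMeasurable (fun z : ℝ × E n => F z.1 z.2)
  bd : ∀ s ∈ Set.Ioc s0 S, ∀ y, ‖F s y‖ ≤ C

noncomputable def Tg (μ : Measure (E n)) (g : E n → ℝ) (s0 S : ℝ) : E n → ℝ := Av s0 S (uu μ g)

noncomputable def Mg (μ : Measure (E n)) (g : E n → ℝ) (s0 S : ℝ) : E n → E n := Av s0 S (NN μ g)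

noncomputable def Gg (μ : Measure (E n)) (g : E n → ℝ) (s0 S : ℝ) : E n → ℝ := Av s0 S (Hy μ g)

/-- The functional maximised in the fixed point step. -/
noncomputable def Phi (μ : Measure (E n)) (η s0 S : ℝ) (g : E n → ℝ) : ℝ :=
  (∫ x, exp (g x) * Tg μ g s0 S x ∂μ) - η * Hh μ g

/-- The Blahut-Arimoto map. -/
noncomputable def BA (μ : Measure (E n)) (η s0 S : ℝ) (g : E n → ℝ) (x : E n) : ℝ :=
  Tg μ g s0 S x / η - log (∫ w, exp (Tg μ g s0 S w / η) ∂μ)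

/-- Partition function of the channel `z = κ ξ(x) + √κ W`. -/
noncomputable def ZZ (μ : Measure (E n)) (g : E n → ℝ) (ξ : E n → E n) (κ : ℝ) (z : E n) : ℝ :=
  ∫ x, exp (g x + ⟪z, ξ x⟫ - κ * ‖ξ x‖ ^ 2 / 2) ∂μ

/-- Log-density of the posterior of that channel. -/
noncomputable def gz (μ : Measure (E n)) (g : E n → ℝ) (ξ : E n → E n) (κ : ℝ) (z x : E n) : ℝ :=
  g x + ⟪z, ξ x⟫ - κ * ‖ξ x‖ ^ 2 / 2 - log (ZZ μ g ξ κ z)

/-- Density of the output of that channel. -/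
noncomputable def pz (μ : Measure (E n)) (g : E n → ℝ) (ξ : E n → E n) (κ : ℝ) (z : E n) : ℝ :=
  gk κ z 0 * ZZ μ g ξ κ z

end Vale.Agent.P245
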